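import Vale.Agent.P069.Properties

/-!
# P069

There is an infinite-dimensional reflexive real Banach space whose norm is asymptotically midpoint
uniformly convex and which has no equivalent asymptotically uniformly convex norm.
-/

/-- A reflexive AMUC Banach space that is not AUC renormable. -/
theorem Vale.Agent.Results.P069.Counterexample.result :
    ∃ (X : Type) (_ : NormedAddCommGroup X) (_ : NormedSpace ℝ X),
      CompleteSpace X ∧
      ¬ FiniteDimensional ℝ X ∧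
      Function.Surjective (NormedSpace.inclusionInDoubleDual ℝ X) ∧
      (∀ t : ℝ, 0 < t → ∃ δ > 0, ∀ x : X, ‖x‖ = 1 → ∃ F : Submodule ℝ X,
        IsClosed (F : Set X) ∧ FiniteDimensional ℝ (X ⧸ F) ∧
          ∀ y ∈ F, ‖y‖ = 1 → 1 + δ ≤ max ‖x + t • y‖ ‖x - t • y‖) ∧
      ∀ N : Seminorm ℝ X,
        (∃ c C : ℝ, 0 < c ∧ ∀ x : X, c * ‖x‖ ≤ N x ∧ N x ≤ C * ‖x‖) →
        ¬ ∀ t : ℝ, 0 < t → ∃ δ > 0, ∀ x : X, N x = 1 → ∃ F : Submodule ℝ X,
          IsClosed (F : Set X) ∧ FiniteDimensional ℝ (X ⧸ F) ∧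
            ∀ y ∈ F, N y = 1 → 1 + δ ≤ N (x + t • y) :=
  ⟨Vale.Agent.P069.X, inferInstance, inferInstance, inferInstance,
    Vale.Agent.P069.not_finiteDimensional_X, Vale.Agent.P069.reflexive_X,
    Vale.Agent.P069.amuc_X,
    fun N ⟨c, C, hc, hN⟩ => Vale.Agent.P069.not_auc_X N c C hc hN⟩
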